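import Vale.Agent.P097.Disc.Defs

/-! # P097 / DG : internal contract of `Disc.D3` (helper164)

Reuses `Disc.Defs` (helper323): `IsLabel a Q`, `RegAt`, `Wn`, `pz`, `evR`.
`Q = ∑ Q n * N^n` is the label, `F = dp / dlog N = - N Q_N / Q_p` the foliation.
Everything is formal.  Nothing here is a theorem.

`D3` follows from `S0`, `S2`, `S3`, `S45` (and `LAB`), see `D3plan` at the end. -/

set_option linter.all false

open scoped BigOperators
open PowerSeries

namespace Vale.Agent.P097.DG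

open Vale.Agent.P097.Disc

abbrev R := RatFunc ℂ

/-- derivative of a rational function -/
noncomputable def dR (r : R) : R :=
  algebraMap (Polynomial ℂ) R
      (Polynomial.derivative r.num * r.denom - r.num * Polynomial.derivative r.denom) /
    algebraMap (Polynomial ℂ) R (r.denom ^ 2)

/-- product of series in `N` over `ℂ(p)` -/
noncomputable def mulS (F G : ℕ → R) : ℕ → R := fun n =>
  ∑ ij ∈ Finset.HasAntidiagonal.antidiagonal n, F ij.1 * G ij.2

/-- `N d/dN` -/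
noncomputable def dN (F : ℕ → R) : ℕ → R := fun n => (n : R) * F n

/-- `d/dp` -/
noncomputable def dp (F : ℕ → R) : ℕ → R := fun n => dR (F n)

/-- `F = dp / dlog N` along the level curves of the label: `F Q_p = - N Q_N`. -/
def Fol (Q F : ℕ → R) : Prop := ∀ n, mulS F (dp Q) n = -dN Q n

/-- [S0] the foliation exists, grows like the label and is regular where the label is
(`F_n = - n Q_n - ∑_{i<n} F_i Q_{n-i}'`). -/
def S0 : Prop := ∀ (a : ℕ → ℂ) (Q : ℕ → R), a 0 = 1 → IsLabel a Q →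
  (∀ n, 1 ≤ n → Q n = 0 ∨ (Q n).intDegree ≤ 1 - (n : ℤ)) →
  ∃ F : ℕ → R, Fol Q F ∧ F 0 = 0 ∧ (∀ n, F n = 0 ∨ (F n).intDegree ≤ 1 - (n : ℤ)) ∧
    ∀ c : ℂ, (∀ j, RegAt (Q j) c) → ∀ n, RegAt (F n) c

/-- [S1] poles of the label: only at `cos (π k / m)`, `0 < k < m ≤ n`, order at most `2 n`. -/
def S1 : Prop := ∀ (a : ℕ → ℂ) (Q : ℕ → R), a 0 = 1 → IsLabel a Q → ∀ n, 1 ≤ n → ∀ c : ℂ,
  (Q n).denom.rootMultiplicity c ≤ 2 * n ∧
    (¬ RegAt (Q n) c → ∃ m k : ℕ, 0 < k ∧ k < m ∧ m ≤ n ∧ c = (Real.cos (Real.pi * k / m) : ℝ))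

/-- `(p - c - φ(N)) F` is regular at `p = c`. -/
def OnePole (F : ℕ → R) (c : ℂ) (φ : PowerSeries ℂ) : Prop := constantCoeff φ = 0 ∧
  ∀ n, RegAt ((RatFunc.X - RatFunc.C c) * F n -
    ∑ ij ∈ Finset.HasAntidiagonal.antidiagonal n, RatFunc.C (coeff ij.1 φ) * F ij.2) c

/-- [S2] local structure at a resonance (`T^m` is unipotent at `(0, c)`, `F = V_p / (V_N / N)`,
`V = log T^m`). -/
def S2 : Prop := ∀ (a : ℕ → ℂ) (Q F : ℕ → R), a 0 = 1 → IsLabel a Q → Fol Q F →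
  ∀ m k : ℕ, 0 < k → k < m → ∃ φ, OnePole F (Real.cos (Real.pi * k / m) : ℝ) φ

/-- polynomial in `N` (inner variable) and `p` (outer variable) as a series in `N` over `ℂ(p)`. -/
noncomputable def ser (P : Polynomial (Polynomial ℂ)) : ℕ → R := fun k =>
  ∑ i ∈ Finset.range (P.natDegree + 1), RatFunc.C ((P.coeff i).coeff k) * (RatFunc.X : R) ^ i

/-- `P`, `D` polynomials in `(N, p)`, coprime, `D` monic in `p` of degree `e`, total degrees
`≤ e + 1`, `≤ e`, `N ∣ P`. -/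
structure PD (e : ℕ) (P D : Polynomial (Polynomial ℂ)) : Prop where
  Dm : D.Monic
  Dd : D.natDegree = e
  Dt : ∀ i, i ≤ e → (D.coeff i).natDegree ≤ e - i
  Pt : ∀ i, i ≤ e → (P.coeff i).natDegree ≤ e + 1 - i
  Pd : P.natDegree ≤ e
  Pz : ∀ i, (P.coeff i).coeff 0 = 0
  cop : IsCoprime (P.map (algebraMap (Polynomial ℂ) (RatFunc ℂ)))
    (D.map (algebraMap (Polynomial ℂ) (RatFunc ℂ)))

/-- [S3] (pure algebra: Kronecker + Fatou, helper104) finitely many poles, each a single simple pole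
curve, and the growth at infinity imply that the foliation is algebraic: `F = P / D`. -/
def S3 : Prop := ∀ (F : ℕ → R) (S : Finset ℂ), F 0 = 0 →
  (∀ n, F n = 0 ∨ (F n).intDegree ≤ 1 - (n : ℤ)) →
  (∀ c : ℂ, c ∉ S → ∀ n, RegAt (F n) c) → (∀ c ∈ S, ∃ φ, OnePole F c φ) →
  ∃ e P D, PD e P D ∧ mulS F (ser D) = ser P

/-- [S45] (mirror identity, L1-L7; 779 + 541) an algebraic invariant foliation
`P Q_p + D N Q_N = 0` belongs to a conic. -/
def S45 : Prop := ∀ (a : ℕ → ℂ) (Q : ℕ → R) (e : ℕ) (P D : Polynomial (Polynomial ℂ)),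
  a 0 = 1 → a 1 = 0 → IsLabel a Q → PD e P D →
  (∀ n, mulS (ser P) (dp Q) n + mulS (ser D) (dN Q) n = 0) →
  ∃ b : ℂ, (PowerSeries.mk a) ^ 2 = 1 + PowerSeries.C b * PowerSeries.X ^ 2

/-- the assembly (helper123) -/
def D3plan : Prop := LAB → S0 → S1 → S2 → S3 → S45 → D3

end Vale.Agent.P097.DG
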