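import Vale.Agent.P097.H896.D3.Lab
import Vale.Agent.P097.H123.D3Defs

/-! # P097 / DG / Transfer : the defining identity of the label, transferred to an arbitrary ring
in which `z ^ (K + 1) = 0` and `x y = 1` (helper164) -/

set_option linter.all false

open Polynomial

namespace Vale.Agent.P097.DG

open Vale.Agent.P097.Disc Vale.Agent.P097.H896.D3 Vale.Agent.P097.D3

section expr

variable {S T : Type*} [CommRing S] [Algebra ℂ S] [CommRing T] [Algebra ℂ T]

/-- `A(z)` truncated -/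
noncomputable def TA (a : ℕ → ℂ) (K : ℕ) (z : S) : S :=
  ∑ m ∈ Finset.range (K + 1), algebraMap ℂ S (Ac a m) * z ^ m

/-- `B(z)` truncated -/
noncomputable def TB (a : ℕ → ℂ) (K : ℕ) (z : S) : S :=
  ∑ m ∈ Finset.range (K + 1), algebraMap ℂ S (Bc a m) * z ^ m

/-- `(∑ P_n(p) (z x)^n) q(p')`, `p = A x + B y`, `p' = A y + B x` -/
noncomputable def TE (a : ℕ → ℂ) (K : ℕ) (P : ℕ → ℂ[X]) (q : ℂ[X]) (z x y : S) : S :=
  (∑ n ∈ Finset.range (K + 1), Polynomial.aeval (TA a K z * x + TB a K z * y) (P n) *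
    (z * x) ^ n) * Polynomial.aeval (TA a K z * y + TB a K z * x) q

variable (f : S →+* T) (hf : ∀ c, f (algebraMap ℂ S c) = algebraMap ℂ T c)

include hf

theorem map_TA (a : ℕ → ℂ) (K : ℕ) (z : S) : f (TA a K z) = TA a K (f z) := by
  rw [TA, TA, map_sum]
  exact Finset.sum_congr rfl fun m _ => by rw [map_mul, map_pow, hf]

theorem map_TB (a : ℕ → ℂ) (K : ℕ) (z : S) : f (TB a K z) = TB a K (f z) := by
  rw [TB, TB, map_sum]
  exact Finset.sum_congr rfl fun m _ => by rw [map_mul, map_pow, hf]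

theorem map_aev (p : ℂ[X]) (u : S) : f (Polynomial.aeval u p) = Polynomial.aeval (f u) p := by
  rw [Polynomial.aeval_def, Polynomial.aeval_def, Polynomial.hom_eval₂]
  congr 1
  exact RingHom.ext hf

theorem map_TE (a : ℕ → ℂ) (K : ℕ) (P : ℕ → ℂ[X]) (q : ℂ[X]) (z x y : S) :
    f (TE a K P q z x y) = TE a K P q (f z) (f x) (f y) := by
  rw [TE, TE, map_mul, map_sum, map_aev f hf, map_add, map_mul, map_mul, map_TA f hf,
    map_TB f hf]
  congr 1
  refine Finset.sum_congr rfl fun n _ => ?_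
  rw [map_mul, map_pow, map_mul, map_aev f hf, map_add, map_mul, map_mul, map_TA f hf,
    map_TB f hf]

end expr

/-! ### the identity over `ℂ(ξ)⟦z⟧` -/

/-- the sum `∑_{i ≤ K} (x z)^i Q_i(p_x)` -/
theorem coeff_lab (a : ℕ → ℂ) (Q : ℕ → RatFunc ℂ) (x : RatFunc ℂ) (K n : ℕ) (hn : n ≤ K) :
    PowerSeries.coeff n (∑ i ∈ Finset.range (K + 1),
      evR (Q i) (pz a x) * (PowerSeries.X * PowerSeries.C x) ^ i) = Wn a Q x n := by
  rw [map_sum, Wn]
  rw [← Finset.sum_subset (Finset.range_mono (Nat.succ_le_succ hn))]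
  · refine Finset.sum_congr rfl fun i hi => ?_
    have hi' : i ≤ n := Nat.lt_succ_iff.1 (Finset.mem_range.1 hi)
    rw [mul_comm PowerSeries.X, coeff_mul_tX_pow, if_pos hi', mul_comm]
  · intro i _ hi
    have hi' : ¬ i ≤ n := fun h => hi (Finset.mem_range.2 (Nat.lt_succ_iff.2 h))
    rw [mul_comm PowerSeries.X, coeff_mul_tX_pow, if_neg hi']

theorem lab_dvd (a : ℕ → ℂ) (Q : ℕ → RatFunc ℂ) (hQ : IsLabel a Q) (K : ℕ) :
    (PowerSeries.X : PowerSeries (RatFunc ℂ)) ^ (K + 1) ∣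
      (∑ i ∈ Finset.range (K + 1), evR (Q i) (pz a RatFunc.X) *
        (PowerSeries.X * PowerSeries.C RatFunc.X) ^ i) -
      ∑ i ∈ Finset.range (K + 1), evR (Q i) (pz a (RatFunc.X)⁻¹) *
        (PowerSeries.X * PowerSeries.C (RatFunc.X)⁻¹) ^ i := by
  rw [PowerSeries.X_pow_dvd_iff]
  intro n hn
  rw [map_sub, coeff_lab _ _ _ _ _ (Nat.lt_succ_iff.1 hn), coeff_lab _ _ _ _ _
    (Nat.lt_succ_iff.1 hn), hQ.2 n, sub_self]

theorem sub_mul_q {P : PowerSeries (RatFunc ℂ)} (hP : PowerSeries.constantCoeff P = p0)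
    {r : RatFunc ℂ} {u q : ℂ[X]} (hq : q ≠ 0) (hr : r = pr u / pr q) :
    evR r P * Polynomial.aeval P q = Polynomial.aeval P u := by
  have h1 : r * algebraMap ℂ[X] (RatFunc ℂ) q = algebraMap ℂ[X] (RatFunc ℂ) u := by
    rw [hr, pr, pr, div_mul_cancel₀]
    exact RatFunc.algebraMap_ne_zero hq
  rw [evR_eq hP, aeval_eq_subPoly, aeval_eq_subPoly, ← sub_algebraMap hP, ← sub_algebraMap hP,
    ← map_mul, h1]

/-- quotient by `X ^ (K+1)` -/
noncomputable abbrev IK (K : ℕ) : Ideal (PowerSeries (RatFunc ℂ)) :=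
  Ideal.span {(PowerSeries.X : PowerSeries (RatFunc ℂ)) ^ (K + 1)}

theorem mk_pz (a : ℕ → ℂ) (K : ℕ) (x : RatFunc ℂ) :
    Ideal.Quotient.mk (IK K) (pz a x) =
      Ideal.Quotient.mk (IK K) (TA a K PowerSeries.X * PowerSeries.C x +
        TB a K PowerSeries.X * PowerSeries.C x⁻¹) := by
  rw [Ideal.Quotient.mk_eq_mk_iff_sub_mem, Ideal.mem_span_singleton, PowerSeries.X_pow_dvd_iff]
  intro n hn
  have key : ∀ c : ℕ → ℂ, PowerSeries.coeff n (∑ m ∈ Finset.range (K + 1),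
      algebraMap ℂ (PowerSeries (RatFunc ℂ)) (c m) * PowerSeries.X ^ m) = RatFunc.C (c n) := by
    intro c
    rw [map_sum, Finset.sum_eq_single n]
    · rw [PowerSeries.algebraMap_apply, PowerSeries.coeff_C_mul, PowerSeries.coeff_X_pow,
        if_pos rfl, mul_one, RatFunc.algebraMap_eq_C]
    · intro m _ hm
      rw [PowerSeries.algebraMap_apply, PowerSeries.coeff_C_mul, PowerSeries.coeff_X_pow,
        if_neg (Ne.symm hm), mul_zero]
    · intro h
      exact absurd (Finset.mem_range.2 hn) h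
  rw [map_sub, map_add, PowerSeries.coeff_mul_C, PowerSeries.coeff_mul_C, coeff_pz, TA, TB, key,
    key, sub_self]

theorem mk_aeval (a : ℕ → ℂ) (K : ℕ) (x : RatFunc ℂ) (f : ℂ[X]) :
    Ideal.Quotient.mk (IK K) (Polynomial.aeval (pz a x) f) =
      Ideal.Quotient.mk (IK K) (Polynomial.aeval (TA a K PowerSeries.X * PowerSeries.C x +
        TB a K PowerSeries.X * PowerSeries.C x⁻¹) f) := by
  have hc : ∀ c, Ideal.Quotient.mk (IK K) (algebraMap ℂ (PowerSeries (RatFunc ℂ)) c) =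
      algebraMap ℂ (PowerSeries (RatFunc ℂ) ⧸ IK K) c := fun c => rfl
  rw [map_aev _ hc, map_aev _ hc, mk_pz]

theorem univ_dvd (a : ℕ → ℂ) (ha : a 0 = 1) (Q : ℕ → RatFunc ℂ) (hQ : IsLabel a Q) (K : ℕ)
    (P : ℕ → ℂ[X]) (q : ℂ[X]) (hq : q ≠ 0) (hP : ∀ n ≤ K, Q n = pr (P n) / pr q) :
    (PowerSeries.X : PowerSeries (RatFunc ℂ)) ^ (K + 1) ∣
      TE a K P q PowerSeries.X (PowerSeries.C RatFunc.X) (PowerSeries.C (RatFunc.X)⁻¹) -
        TE a K P q PowerSeries.X (PowerSeries.C (RatFunc.X)⁻¹) (PowerSeries.C RatFunc.X) := by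
  have h1 := lab_dvd a Q hQ K
  have h2 := h1.mul_right (Polynomial.aeval (pz a (RatFunc.X : RatFunc ℂ)) q *
    Polynomial.aeval (pz a (RatFunc.X : RatFunc ℂ)⁻¹) q)
  have e1 : ∀ (x y : RatFunc ℂ), PowerSeries.constantCoeff (pz a x) = p0 →
      (∑ i ∈ Finset.range (K + 1), evR (Q i) (pz a x) *
        (PowerSeries.X * PowerSeries.C x) ^ i) *
        (Polynomial.aeval (pz a x) q * Polynomial.aeval (pz a y) q) =
      (∑ i ∈ Finset.range (K + 1), Polynomial.aeval (pz a x) (P i) *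
        (PowerSeries.X * PowerSeries.C x) ^ i) * Polynomial.aeval (pz a y) q := by
    intro x y hx
    rw [← mul_assoc, Finset.sum_mul]
    congr 1
    refine Finset.sum_congr rfl fun i hi => ?_
    rw [← sub_mul_q hx hq (hP i (Nat.lt_succ_iff.1 (Finset.mem_range.1 hi)))]
    ring
  rw [sub_mul, e1 _ _ (cc_pz ha), mul_comm (Polynomial.aeval (pz a (RatFunc.X : RatFunc ℂ)) q),
    e1 _ _ (cc_pz' ha)] at h2
  rw [← Ideal.mem_span_singleton, ← Ideal.Quotient.eq_zero_iff_mem, map_sub, sub_eq_zero] at h2 ⊢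
  have e2 : ∀ (x : RatFunc ℂ), Ideal.Quotient.mk (IK K)
      ((∑ i ∈ Finset.range (K + 1), Polynomial.aeval (pz a x) (P i) *
        (PowerSeries.X * PowerSeries.C x) ^ i) * Polynomial.aeval (pz a x⁻¹) q) =
      Ideal.Quotient.mk (IK K) (TE a K P q PowerSeries.X (PowerSeries.C x)
        (PowerSeries.C x⁻¹)) := by
    intro x
    have e3 := mk_aeval a K x⁻¹ q
    rw [inv_inv] at e3
    rw [TE, map_mul, map_mul, e3, map_sum, map_sum, add_comm (TA a K PowerSeries.X *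
      PowerSeries.C x⁻¹)]
    congr 1
    refine Finset.sum_congr rfl fun i _ => ?_
    rw [map_mul, map_mul, mk_aeval]
  have h3 := e2 (RatFunc.X)⁻¹
  rw [inv_inv] at h3
  rw [← e2, ← h3]
  exact h2

/-! ### the universal ring `ℂ[x, x⁻¹][z]` -/

open LaurentPolynomial in
/-- `ℂ[T, T⁻¹] → ℂ(ξ)` -/
noncomputable def toR : LaurentPolynomial ℂ →+* RatFunc ℂ :=
  LaurentPolynomial.eval₂ RatFunc.C (Units.mk0 RatFunc.X RatFunc.X_ne_zero)

theorem toR_toLaurent (p : ℂ[X]) :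
    toR (Polynomial.toLaurent p) = algebraMap ℂ[X] (RatFunc ℂ) p := by
  rw [toR, LaurentPolynomial.eval₂_toLaurent, Units.val_mk0]
  conv_rhs => rw [← Polynomial.eval₂_C_X (p := p), Polynomial.hom_eval₂, RatFunc.algebraMap_X]
  congr 1

theorem toR_injective : Function.Injective toR := by
  rw [injective_iff_map_eq_zero]
  intro f hf
  obtain ⟨n, p, hp⟩ := LaurentPolynomial.exists_T_pow f
  have h1 : toR (Polynomial.toLaurent p) = 0 := by rw [hp, map_mul, hf, zero_mul]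
  rw [toR_toLaurent] at h1
  have h2 : p = 0 := by
    by_contra h
    exact RatFunc.algebraMap_ne_zero h h1
  rw [h2, map_zero] at hp
  exact ((LaurentPolynomial.isUnit_T (n : ℤ)).mul_left_eq_zero.1 hp.symm)

/-- `ℂ[T, T⁻¹][z] → ℂ(ξ)⟦z⟧` -/
noncomputable def gU : (LaurentPolynomial ℂ)[X] →+* PowerSeries (RatFunc ℂ) :=
  (Polynomial.coeToPowerSeries.ringHom).comp (Polynomial.mapRingHom toR)

theorem coeff_gU (U : (LaurentPolynomial ℂ)[X]) (n : ℕ) :
    PowerSeries.coeff n (gU U) = toR (U.coeff n) := by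
  rw [gU, RingHom.comp_apply, Polynomial.coeToPowerSeries.ringHom_apply, Polynomial.coeff_coe,
    Polynomial.coe_mapRingHom, Polynomial.coeff_map]

theorem gU_X : gU X = PowerSeries.X := by
  rw [gU, RingHom.comp_apply, Polynomial.coe_mapRingHom, Polynomial.map_X,
    Polynomial.coeToPowerSeries.ringHom_apply, Polynomial.coe_X]

theorem gU_C (f : LaurentPolynomial ℂ) : gU (C f) = PowerSeries.C (toR f) := by
  rw [gU, RingHom.comp_apply, Polynomial.coe_mapRingHom, Polynomial.map_C,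
    Polynomial.coeToPowerSeries.ringHom_apply, Polynomial.coe_C]

theorem toR_T1 : toR (LaurentPolynomial.T 1) = RatFunc.X := by
  have := LaurentPolynomial.eval₂_T_n (R := ℂ) (f := (RatFunc.C : ℂ →+* RatFunc ℂ))
    (x := Units.mk0 RatFunc.X RatFunc.X_ne_zero) 1
  simpa [toR] using this

theorem toR_Tn1 : toR (LaurentPolynomial.T (-1)) = (RatFunc.X)⁻¹ := by
  have := LaurentPolynomial.eval₂_T_neg_n (R := ℂ) (f := (RatFunc.C : ℂ →+* RatFunc ℂ))
    (x := Units.mk0 RatFunc.X RatFunc.X_ne_zero) 1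
  simpa [toR] using this

theorem univ_eq (a : ℕ → ℂ) (ha : a 0 = 1) (Q : ℕ → RatFunc ℂ) (hQ : IsLabel a Q) (K : ℕ)
    (P : ℕ → ℂ[X]) (q : ℂ[X]) (hq : q ≠ 0) (hP : ∀ n ≤ K, Q n = pr (P n) / pr q) :
    (X : (LaurentPolynomial ℂ)[X]) ^ (K + 1) ∣
      TE a K P q (X : (LaurentPolynomial ℂ)[X]) (C (LaurentPolynomial.T 1 : LaurentPolynomial ℂ))
          (C (LaurentPolynomial.T (-1) : LaurentPolynomial ℂ)) -
        TE a K P q (X : (LaurentPolynomial ℂ)[X]) (C (LaurentPolynomial.T (-1) : LaurentPolynomial ℂ))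
          (C (LaurentPolynomial.T 1 : LaurentPolynomial ℂ)) := by
  rw [Polynomial.X_pow_dvd_iff]
  intro n hn
  apply toR_injective
  rw [map_zero, ← coeff_gU]
  have hc : ∀ c, gU (algebraMap ℂ (LaurentPolynomial ℂ)[X] c) =
      algebraMap ℂ (PowerSeries (RatFunc ℂ)) c := by
    intro c
    rw [Polynomial.algebraMap_apply, gU_C, PowerSeries.algebraMap_apply]
    congr 1
    rw [LaurentPolynomial.algebraMap_apply, ← Polynomial.toLaurent_C, toR_toLaurent,
      RatFunc.algebraMap_C]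
    rfl
  rw [map_sub, map_TE gU hc, map_TE gU hc, gU_X, gU_C, gU_C, toR_T1, toR_Tn1]
  exact PowerSeries.X_pow_dvd_iff.1 (univ_dvd a ha Q hQ K P q hq hP) n hn

/-- **transfer** of the defining identity of the label to any ring with `z ^ (K+1) = 0` -/
theorem label_transfer' (a : ℕ → ℂ) (ha : a 0 = 1) (Q : ℕ → RatFunc ℂ) (hQ : IsLabel a Q) (K : ℕ)
    (P : ℕ → ℂ[X]) (q : ℂ[X]) (hq : q ≠ 0) (hP : ∀ n ≤ K, Q n = pr (P n) / pr q)
    {S : Type*} [CommRing S] [Algebra ℂ S] (z x y : S) (hxy : x * y = 1) (hz : z ^ (K + 1) = 0) :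
    TE a K P q z x y = TE a K P q z y x := by
  let u : Sˣ := ⟨x, y, hxy, by rw [mul_comm]; exact hxy⟩
  let ψ : LaurentPolynomial ℂ →+* S := LaurentPolynomial.eval₂ (algebraMap ℂ S) u
  let g : (LaurentPolynomial ℂ)[X] →+* S := Polynomial.eval₂RingHom ψ z
  have hψ1 : ψ (LaurentPolynomial.T 1) = x := by
    have := LaurentPolynomial.eval₂_T_n (R := ℂ) (f := algebraMap ℂ S) (x := u) 1
    simpa [ψ, u] using this
  have hψ2 : ψ (LaurentPolynomial.T (-1)) = y := by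
    have := LaurentPolynomial.eval₂_T_neg_n (R := ℂ) (f := algebraMap ℂ S) (x := u) 1
    simpa [ψ, u] using this
  have hgC : ∀ f, g (C f) = ψ f := fun f => by
    simp [g]
  have hgX : g X = z := by simp [g]
  have hc : ∀ c, g (algebraMap ℂ (LaurentPolynomial ℂ)[X] c) = algebraMap ℂ S c := by
    intro c
    rw [Polynomial.algebraMap_apply, hgC, LaurentPolynomial.algebraMap_apply]
    exact LaurentPolynomial.eval₂_C _ _ _
  obtain ⟨G, hG⟩ := univ_eq a ha Q hQ K P q hq hP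
  have h := congrArg g hG
  rw [map_sub, map_TE g hc, map_TE g hc, hgX, hgC, hgC, hψ1, hψ2, map_mul, map_pow, hgX, hz,
    zero_mul, sub_eq_zero] at h
  exact h

/-- **transfer**, explicit form -/
theorem label_transfer (a : ℕ → ℂ) (ha : a 0 = 1) (Q : ℕ → RatFunc ℂ) (hQ : IsLabel a Q) (K : ℕ)
    (P : ℕ → ℂ[X]) (q : ℂ[X]) (hq : q ≠ 0) (hP : ∀ n ≤ K, Q n = pr (P n) / pr q)
    {S : Type*} [CommRing S] [Algebra ℂ S] (z x y : S) (hxy : x * y = 1) (hz : z ^ (K + 1) = 0)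
    (A B : S) (hA : A = ∑ m ∈ Finset.range (K + 1), algebraMap ℂ S (Ac a m) * z ^ m)
    (hB : B = ∑ m ∈ Finset.range (K + 1), algebraMap ℂ S (Bc a m) * z ^ m) :
    (∑ n ∈ Finset.range (K + 1), Polynomial.aeval (A * x + B * y) (P n) * (z * x) ^ n) *
        Polynomial.aeval (A * y + B * x) q =
      (∑ n ∈ Finset.range (K + 1), Polynomial.aeval (A * y + B * x) (P n) * (z * y) ^ n) *
        Polynomial.aeval (A * x + B * y) q := by
  subst hA hB
  exact label_transfer' a ha Q hQ K P q hq hP z x y hxy hz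

end Vale.Agent.P097.DG
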